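import Vale.Agent.P207.SPH.Geo
import Vale.Agent.P207.H596.SPH.Par

/-!
# P207, project SPH, row G3: the curvature matrix is constant along the frame flow if and only if
the metric is locally symmetric
-/

namespace Vale.Agent.P207.SPH.H596

/-- **row G3** -/
theorem loc : LocGeoStmt := fun _ hm _ _ _ _ _ _ _ _ h =>
  Vale.Agent.P207.H596.SPH.km_const_iff (by omega) h

end Vale.Agent.P207.SPH.H596
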